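import Vale.Agent.P087.Main

/-! # P087 — `χ = χ*` fails for a tuple with finite microstates free entropy -/

open MeasureTheory
open scoped InnerProductSpace

theorem Vale.Agent.Results.P087.EntropyGap.result :
    ∃ (N : ℕ) (H : Type) (_ : NormedAddCommGroup H) (_ : InnerProductSpace ℂ H)
      (_ : CompleteSpace H) (Ω : H) (X S : Fin N → H →L[ℂ] H),
      0 < N ∧ (∀ j, IsSelfAdjoint (X j) ∧ IsSelfAdjoint (S j)) ∧
      Vale.Agent.P087.IsFaithfulTrace Ω (Vale.Agent.P087.vnGen (Set.range X ∪ Set.range S)) ∧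
      Vale.Agent.P087.IsFreeSemicircularFrom Ω X S ∧
      ⊥ < Vale.Agent.P087.chi Ω X ∧
      ∃ ξ : ℝ → Fin N → H,
        (∀ t : ℝ, 0 < t → ∀ j,
          Vale.Agent.P087.IsConjugateVar Ω (Vale.Agent.P087.addSemicircular X S t) j (ξ t j)) ∧
        IntegrableOn (fun t : ℝ => (N : ℝ) / (1 + t) - ∑ j, ‖ξ t j‖ ^ 2) (Set.Ioi 0) ∧
        Vale.Agent.P087.chi Ω X <
          ((1 / 2 * ∫ t in Set.Ioi (0 : ℝ), ((N : ℝ) / (1 + t) - ∑ j, ‖ξ t j‖ ^ 2))
            + (N : ℝ) / 2 * Real.log (2 * Real.pi * Real.exp 1) : ℝ) :=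
  Vale.Agent.P087.main_counterexample
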